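import Vale.Agent.P038.MathlibUsed
import Mathlib.Combinatorics.Hall.Basic

/-!
# P038: the product inequality (**)
-/

namespace Vale.Agent.P038.H379

open Finset
open scoped Classical

variable {V : Type*} [Fintype V]

/-- The image of a set under a relation. -/
noncomputable def cl (r : V → V → Prop) (X : Finset V) : Finset V :=
  univ.filter fun a => ∃ p ∈ X, r p a

theorem mem_cl {r : V → V → Prop} {X : Finset V} {a : V} : a ∈ cl r X ↔ ∃ p ∈ X, r p a := by
  simp [cl]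

theorem cl_mono {r : V → V → Prop} {X Y : Finset V} (h : X ⊆ Y) : cl r X ⊆ cl r Y := by
  intro a ha
  obtain ⟨p, hp, hr⟩ := mem_cl.1 ha
  exact mem_cl.2 ⟨p, h hp, hr⟩

/-- The excess function. -/
noncomputable def psi (r : V → V → Prop) (e A : Finset V) : ℤ := ((cl r A ∩ e).card : ℤ) - A.card

theorem psi_empty (r : V → V → Prop) (e : Finset V) : psi r e ∅ = 0 := by
  have : cl r (∅ : Finset V) = ∅ := by
    rw [Finset.eq_empty_iff_forall_notMem]
    intro a ha
    obtain ⟨p, hp, _⟩ := mem_cl.1 ha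
    simp at hp
  simp [psi, this]

theorem psi_exch {r : V → V → Prop} {e e2 A1 B2 K K2 : Finset V} (hA : A1 ⊆ K) (hB : B2 ⊆ K2)
    (he : e ⊆ e2) (h : ∀ a ∈ e, ∀ x ∈ K2, r x a → x ∈ K) :
    psi r e (A1 ∪ (B2 ∩ K)) + psi r e2 ((B2 ∩ A1) ∪ (B2 \ K)) ≤ psi r e A1 + psi r e2 B2 := by
  set A' := A1 ∪ (B2 ∩ K) with hA'
  set B' := (B2 ∩ A1) ∪ (B2 \ K) with hB'
  -- cardinalities
  have c1 : A'.card + B'.card = A1.card + B2.card := by
    have h1 : A' ∪ B' = A1 ∪ B2 := by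
      ext x
      simp only [hA', hB', mem_union, mem_inter, mem_sdiff]
      tauto
    have h2 : A' ∩ B' = A1 ∩ B2 := by
      ext x
      simp only [hA', hB', mem_union, mem_inter, mem_sdiff]
      constructor
      · rintro ⟨h3 | h3, h4 | h4⟩
        · exact ⟨h3, h4.1⟩
        · exact absurd (hA h3) h4.2
        · exact ⟨h4.2, h4.1⟩
        · exact absurd h3.2 h4.2
      · rintro ⟨h3, h4⟩
        exact ⟨Or.inl h3, Or.inl ⟨h4, h3⟩⟩
    rw [← card_union_add_card_inter A' B', ← card_union_add_card_inter A1 B2, h1, h2]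
  have split : ∀ X : Finset V, (cl r X ∩ e2).card = (cl r X ∩ e).card + (cl r X ∩ (e2 \ e)).card := by
    intro X
    rw [← card_union_of_disjoint]
    · congr 1
      ext x
      simp only [mem_union, mem_inter, mem_sdiff]
      constructor
      · rintro ⟨h1, h2⟩
        by_cases h3 : x ∈ e
        · exact Or.inl ⟨h1, h3⟩
        · exact Or.inr ⟨h1, h2, h3⟩
      · rintro (⟨h1, h2⟩ | ⟨h1, h2, _⟩)
        · exact ⟨h1, he h2⟩
        · exact ⟨h1, h2⟩
    · rw [Finset.disjoint_left]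
      intro x hx hx'
      exact (mem_sdiff.1 (mem_inter.1 hx').2).2 (mem_inter.1 hx).2
  have hB'B2 : B' ⊆ B2 := by
    intro x hx
    rcases mem_union.1 hx with h1 | h1
    · exact (mem_inter.1 h1).1
    · exact (mem_sdiff.1 h1).1
  have c2 : (cl r B' ∩ (e2 \ e)).card ≤ (cl r B2 ∩ (e2 \ e)).card :=
    card_le_card (inter_subset_inter_right (cl_mono hB'B2))
  have s1 : cl r A' ∩ e ⊆ (cl r A1 ∩ e) ∪ (cl r B2 ∩ e) := by
    intro a ha
    obtain ⟨h1, h2⟩ := mem_inter.1 ha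
    obtain ⟨p, hp, hr⟩ := mem_cl.1 h1
    rcases mem_union.1 hp with h3 | h3
    · exact mem_union_left _ (mem_inter.2 ⟨mem_cl.2 ⟨p, h3, hr⟩, h2⟩)
    · exact mem_union_right _ (mem_inter.2 ⟨mem_cl.2 ⟨p, (mem_inter.1 h3).1, hr⟩, h2⟩)
  have s2 : cl r B' ∩ e ⊆ (cl r A1 ∩ e) ∩ (cl r B2 ∩ e) := by
    intro a ha
    obtain ⟨h1, h2⟩ := mem_inter.1 ha
    obtain ⟨p, hp, hr⟩ := mem_cl.1 h1
    have hpB : p ∈ B2 := hB'B2 hp
    have hpK : p ∈ K := h a h2 p (hB hpB) hr
    have hpA : p ∈ A1 := by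
      rcases mem_union.1 hp with h3 | h3
      · exact (mem_inter.1 h3).2
      · exact absurd hpK (mem_sdiff.1 h3).2
    exact mem_inter.2 ⟨mem_inter.2 ⟨mem_cl.2 ⟨p, hpA, hr⟩, h2⟩,
      mem_inter.2 ⟨mem_cl.2 ⟨p, hpB, hr⟩, h2⟩⟩
  have c3 := card_le_card s1
  have c4 := card_le_card s2
  have c5 := card_union_add_card_inter (cl r A1 ∩ e) (cl r B2 ∩ e)
  have c6 := split B'
  have c7 := split B2
  unfold psi
  have c1' : (A'.card : ℤ) + B'.card = A1.card + B2.card := by exact_mod_cast c1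
  have : ((cl r A' ∩ e).card : ℤ) + (cl r B' ∩ e2).card ≤ (cl r A1 ∩ e).card + (cl r B2 ∩ e2).card := by
    have : (cl r A' ∩ e).card + (cl r B' ∩ e2).card ≤ (cl r A1 ∩ e).card + (cl r B2 ∩ e2).card := by
      omega
    exact_mod_cast this
  linarith

theorem psi_sub {r : V → V → Prop} {e A B : Finset V} :
    psi r e (A ∪ B) + psi r e (A ∩ B) ≤ psi r e A + psi r e B := by
  have h := psi_exch (r := r) (e := e) (e2 := e) (A1 := A) (B2 := B) (K := univ) (K2 := univ)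
    (subset_univ _) (subset_univ _) (subset_refl _) (fun _ _ _ _ _ => mem_univ _)
  have h1 : A ∪ B ∩ univ = A ∪ B := by simp
  have h2 : B ∩ A ∪ B \ univ = A ∩ B := by
    ext x
    simp only [mem_union, mem_inter, mem_sdiff, mem_univ, not_true_eq_false, and_false, or_false]
    tauto
  rw [h1, h2] at h
  exact h

/-- Admissible sets. -/
noncomputable def adm (o : V → ℕ) (K : Finset V) (m : ℕ) : Finset (Finset V) :=
  K.powerset.filter fun A => ∀ x ∈ K, o x < m → x ∈ A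

theorem mem_adm {o : V → ℕ} {K A : Finset V} {m : ℕ} :
    A ∈ adm o K m ↔ A ⊆ K ∧ ∀ x ∈ K, o x < m → x ∈ A := by
  simp [adm]

theorem adm_nonempty (o : V → ℕ) (K : Finset V) (m : ℕ) : (adm o K m).Nonempty :=
  ⟨K, mem_adm.2 ⟨subset_refl _, fun _ hx _ => hx⟩⟩

/-- The least excess of a set between `K_{<m}` and `K`. -/
noncomputable def mn (r : V → V → Prop) (o : V → ℕ) (K e : Finset V) (m : ℕ) : ℤ :=
  (adm o K m).inf' (adm_nonempty o K m) (psi r e)

theorem mn_le {r : V → V → Prop} {o : V → ℕ} {K e A : Finset V} {m : ℕ} (h1 : A ⊆ K)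
    (h2 : ∀ x ∈ K, o x < m → x ∈ A) : mn r o K e m ≤ psi r e A :=
  Finset.inf'_le _ (mem_adm.2 ⟨h1, h2⟩)

theorem mn_ex (r : V → V → Prop) (o : V → ℕ) (K e : Finset V) (m : ℕ) :
    ∃ A, A ⊆ K ∧ (∀ x ∈ K, o x < m → x ∈ A) ∧ mn r o K e m = psi r e A := by
  obtain ⟨A, hA, h⟩ := Finset.exists_mem_eq_inf' (adm_nonempty o K m) (psi r e)
  obtain ⟨h1, h2⟩ := mem_adm.1 hA
  exact ⟨A, h1, h2, h⟩

/-- The allocation. -/
noncomputable def ell (r : V → V → Prop) (o : V → ℕ) (K e : Finset V) (m : ℕ) : ℤ :=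
  mn r o K e (m + 1) - mn r o K e m

theorem ell_nonneg (r : V → V → Prop) (o : V → ℕ) (K e : Finset V) (m : ℕ) :
    0 ≤ ell r o K e m := by
  obtain ⟨A, h1, h2, h3⟩ := mn_ex r o K e (m + 1)
  have h4 : mn r o K e m ≤ psi r e A := mn_le h1 (fun x hx hxm => h2 x hx (by omega))
  unfold ell
  linarith

theorem ell_eq_zero {r : V → V → Prop} {o : V → ℕ} (ho : Function.Injective o) {K e : Finset V}
    {p : V} (hp : p ∉ K) : ell r o K e (o p) = 0 := by
  have h : mn r o K e (o p + 1) ≤ mn r o K e (o p) := by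
    obtain ⟨A, h1, h2, h3⟩ := mn_ex r o K e (o p)
    rw [h3]
    refine mn_le h1 (fun x hx hxm => h2 x hx ?_)
    have : o x ≠ o p := fun h => hp (ho h ▸ hx)
    omega
  have h' := ell_nonneg r o K e (o p)
  unfold ell at h' ⊢
  linarith

theorem mn_top {r : V → V → Prop} {o : V → ℕ} {K e : Finset V} {n : ℕ} (hn : ∀ x, o x < n) :
    mn r o K e n = psi r e K := by
  refine le_antisymm (mn_le (subset_refl _) (fun _ hx _ => hx)) ?_
  obtain ⟨A, h1, h2, h3⟩ := mn_ex r o K e n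
  have : A = K := subset_antisymm h1 (fun x hx => h2 x hx (hn x))
  rw [h3, this]

theorem mn_zero {r : V → V → Prop} {o : V → ℕ} {K e : Finset V} (hall : ∀ A, A ⊆ K → 0 ≤ psi r e A) :
    mn r o K e 0 = 0 := by
  refine le_antisymm ?_ ?_
  · rw [← psi_empty r e]
    exact mn_le (empty_subset _) (fun _ _ h => absurd h (Nat.not_lt_zero _))
  · obtain ⟨A, h1, h2, h3⟩ := mn_ex r o K e 0
    rw [h3]
    exact hall A h1

/-- (M1). -/
theorem ell_anti {r : V → V → Prop} {o : V → ℕ} (ho : Function.Injective o) {K K2 e : Finset V}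
    (hK : K ⊆ K2) {p : V} (hp : p ∈ K) : ell r o K2 e (o p) ≤ ell r o K e (o p) := by
  obtain ⟨A2, a1, a2, a3⟩ := mn_ex r o K e (o p + 1)
  obtain ⟨B1, b1, b2, b3⟩ := mn_ex r o K2 e (o p)
  have h1 : mn r o K2 e (o p + 1) ≤ psi r e (A2 ∪ B1) := by
    refine mn_le (union_subset (a1.trans hK) b1) (fun x hx hxm => ?_)
    by_cases h : o x < o p
    · exact mem_union_right _ (b2 x hx h)
    · have : o x = o p := by omega
      have hxp : x = p := ho this
      subst hxp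
      exact mem_union_left _ (a2 x hp hxm)
  have h2 : mn r o K e (o p) ≤ psi r e (A2 ∩ B1) := by
    refine mn_le (inter_subset_left.trans a1) (fun x hx hxm => ?_)
    exact mem_inter.2 ⟨a2 x hx (by omega), b2 x (hK hx) hxm⟩
  have h3 := psi_sub (r := r) (e := e) (A := A2) (B := B1)
  unfold ell
  linarith

/-- (M2). -/
theorem ell_mono {r : V → V → Prop} {o : V → ℕ} {K K2 e e2 : Finset V}
    (hK : K ⊆ K2) (he : e ⊆ e2) (h : ∀ a ∈ e, ∀ x ∈ K2, r x a → x ∈ K) (m : ℕ) :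
    ell r o K e m ≤ ell r o K2 e2 m := by
  obtain ⟨A1, a1, a2, a3⟩ := mn_ex r o K e m
  obtain ⟨B2, b1, b2, b3⟩ := mn_ex r o K2 e2 (m + 1)
  have h1 : mn r o K e (m + 1) ≤ psi r e (A1 ∪ (B2 ∩ K)) := by
    refine mn_le (union_subset a1 inter_subset_right) (fun x hx hxm => ?_)
    exact mem_union_right _ (mem_inter.2 ⟨b2 x (hK hx) hxm, hx⟩)
  have h2 : mn r o K2 e2 m ≤ psi r e2 ((B2 ∩ A1) ∪ (B2 \ K)) := by
    refine mn_le (union_subset (inter_subset_left.trans b1) (sdiff_subset.trans b1))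
      (fun x hx hxm => ?_)
    have hxB : x ∈ B2 := b2 x hx (by omega)
    by_cases hxK : x ∈ K
    · exact mem_union_left _ (mem_inter.2 ⟨hxB, a2 x hxK hxm⟩)
    · exact mem_union_right _ (mem_sdiff.2 ⟨hxB, hxK⟩)
  have h3 := psi_exch (r := r) a1 b1 he h
  unfold ell
  linarith

/-- The enumeration of the vertices. -/
noncomputable def ord (V : Type*) [Fintype V] : V → ℕ := fun v => (Fintype.equivFin V v : ℕ)

theorem ord_inj : Function.Injective (ord V) := fun _ _ h =>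
  (Fintype.equivFin V).injective (Fin.ext h)

theorem ord_lt (v : V) : ord V v < Fintype.card V := (Fintype.equivFin V v).isLt

theorem sum_ell {r : V → V → Prop} {K e : Finset V} (hall : ∀ A, A ⊆ K → 0 ≤ psi r e A) :
    ∑ p, ell r (ord V) K e (ord V p) = psi r e K := by
  have h1 : ∑ p, ell r (ord V) K e (ord V p) =
      ∑ i : Fin (Fintype.card V), ell r (ord V) K e (i : ℕ) :=
    Equiv.sum_comp (Fintype.equivFin V) (fun i => ell r (ord V) K e (i : ℕ))
  rw [h1, Fin.sum_univ_eq_sum_range (fun m => ell r (ord V) K e m)]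
  unfold ell
  rw [Finset.sum_range_sub (fun m => mn r (ord V) K e m), mn_top ord_lt, mn_zero hall, sub_zero]

/-- Hall with weights. -/
theorem hall_sum {r : V → V → Prop} {O F : Finset V} (f g : V → ℤ) (hg : ∀ b, 0 ≤ g b)
    (hall : ∀ K, K ⊆ O → K.card ≤ (cl r K ∩ F).card)
    (h : ∀ q ∈ O, ∀ b ∈ F, r q b → f q ≤ g b) : ∑ q ∈ O, f q ≤ ∑ b ∈ F, g b := by
  have key : ∀ s : Finset {q // q ∈ O},
      s.card ≤ (s.biUnion fun q => F.filter fun b => r q.1 b).card := by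
    intro s
    have h1 := hall (s.map (Function.Embedding.subtype _)) (by
      intro x hx
      obtain ⟨y, _, rfl⟩ := mem_map.1 hx
      exact y.2)
    rw [card_map] at h1
    refine h1.trans (card_le_card ?_)
    intro b hb
    obtain ⟨h2, h3⟩ := mem_inter.1 hb
    obtain ⟨p, hp, hr⟩ := mem_cl.1 h2
    obtain ⟨y, hy, rfl⟩ := mem_map.1 hp
    exact mem_biUnion.2 ⟨y, hy, mem_filter.2 ⟨h3, hr⟩⟩
  obtain ⟨φ, hinj, hφ⟩ := (Finset.all_card_le_biUnion_card_iff_exists_injective _).1 key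
  have h1 : ∑ q ∈ O, f q = ∑ q : {q // q ∈ O}, f q.1 := by
    rw [Finset.sum_coe_sort O f]
  rw [h1]
  have h2 : ∑ q : {q // q ∈ O}, f q.1 ≤ ∑ q : {q // q ∈ O}, g (φ q) :=
    Finset.sum_le_sum (fun q _ => h q.1 q.2 (φ q) (mem_filter.1 (hφ q)).1 (mem_filter.1 (hφ q)).2)
  refine h2.trans ?_
  have h3 : ∑ q : {q // q ∈ O}, g (φ q) = ∑ b ∈ (univ.image φ), g b := by
    rw [Finset.sum_image (fun x _ y _ h => hinj h)]
  rw [h3]
  refine Finset.sum_le_sum_of_subset_of_nonneg ?_ (fun b _ _ => hg b)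
  intro b hb
  obtain ⟨q, _, rfl⟩ := mem_image.1 hb
  exact (mem_filter.1 (hφ q)).1

section Star

variable {r : V → V → Prop} {R S : V → Finset V}

/-- Open cells, column `q`. -/
noncomputable def Oc (R S : V → Finset V) (q : V) : Finset V :=
  univ.filter fun p => q ∉ R p ∧ p ∉ S q

/-- Open cells, row `p`. -/
noncomputable def Or' (R S : V → Finset V) (p : V) : Finset V :=
  univ.filter fun q => q ∉ R p ∧ p ∉ S q

theorem mem_Oc {p q : V} : p ∈ Oc R S q ↔ q ∉ R p ∧ p ∉ S q := by simp [Oc]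

theorem mem_Or' {p q : V} : q ∈ Or' R S p ↔ q ∉ R p ∧ p ∉ S q := by simp [Or']

/-- Column `b` of `T2`. -/
noncomputable def Ku (r : V → V → Prop) (R S : V → Finset V) (b : V) : Finset V :=
  univ.filter fun p => b ∉ cl r (R p) ∧ ∃ q, r q b ∧ p ∉ S q

theorem mem_Ku {p b : V} : p ∈ Ku r R S b ↔ b ∉ cl r (R p) ∧ ∃ q, r q b ∧ p ∉ S q := by
  simp [Ku]

/-- The target set of column `b`. -/
noncomputable def eu (r : V → V → Prop) (S : V → Finset V) (b : V) : Finset V :=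
  univ.filter fun a => ∃ q, r q b ∧ a ∉ cl r (S q)

theorem mem_eu {a b : V} : a ∈ eu r S b ↔ ∃ q, r q b ∧ a ∉ cl r (S q) := by simp [eu]

/-- The part of column `b` attached to `q`. -/
noncomputable def Kq (r : V → V → Prop) (R S : V → Finset V) (b q : V) : Finset V :=
  univ.filter fun p => b ∉ cl r (R p) ∧ p ∉ S q

theorem mem_Kq {p b q : V} : p ∈ Kq r R S b q ↔ b ∉ cl r (R p) ∧ p ∉ S q := by simp [Kq]

theorem Kq_sub_Oc {b q : V} (h : r q b) : Kq r R S b q ⊆ Oc R S q := by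
  intro p hp
  obtain ⟨h1, h2⟩ := mem_Kq.1 hp
  exact mem_Oc.2 ⟨fun h3 => h1 (mem_cl.2 ⟨q, h3, h⟩), h2⟩

/-- Union Hall. -/
theorem union_hall (hcol : ∀ q K, K ⊆ Oc R S q → K.card ≤ (cl r K \ cl r (S q)).card) (b : V)
    (Q : Finset V) (hQ : ∀ q ∈ Q, r q b) :
    ∀ K : Finset V, (∀ p ∈ K, b ∉ cl r (R p) ∧ ∃ q ∈ Q, p ∉ S q) →
      K.card ≤ (cl r K ∩ univ.filter fun a => ∃ q ∈ Q, a ∉ cl r (S q)).card := by
  induction Q using Finset.induction_on with
  | empty =>
    intro K hK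
    have : K = ∅ := by
      rw [Finset.eq_empty_iff_forall_notMem]
      intro p hp
      obtain ⟨_, q, hq, _⟩ := hK p hp
      simp at hq
    simp [this]
  | insert q Q hq ih =>
    intro K hK
    have ih' := ih (fun q' hq' => hQ q' (mem_insert_of_mem hq'))
    set K1 := K.filter fun p => p ∉ S q with hK1
    set K2 := K.filter fun p => ¬ p ∉ S q with hK2
    have e1 : K1.card + K2.card = K.card := Finset.card_filter_add_card_filter_not _
    have hK1' : K1 ⊆ Oc R S q := by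
      intro p hp
      obtain ⟨h1, h2⟩ := mem_filter.1 hp
      exact Kq_sub_Oc (hQ q (mem_insert_self _ _)) (mem_Kq.2 ⟨(hK p h1).1, h2⟩)
    have c1 := hcol q K1 hK1'
    have c2 := ih' K2 (by
      intro p hp
      obtain ⟨h1, h2⟩ := mem_filter.1 hp
      obtain ⟨h3, q', hq', h4⟩ := hK p h1
      refine ⟨h3, q', ?_, h4⟩
      rcases mem_insert.1 hq' with rfl | h5
      · exact absurd h4 h2
      · exact h5)
    have hd : Disjoint (cl r K1 \ cl r (S q))
        (cl r K2 ∩ univ.filter fun a => ∃ q ∈ Q, a ∉ cl r (S q)) := by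
      rw [Finset.disjoint_left]
      intro a ha ha'
      obtain ⟨p, hp, hr⟩ := mem_cl.1 (mem_inter.1 ha').1
      have h2 := (mem_filter.1 hp).2
      rw [not_not] at h2
      exact (mem_sdiff.1 ha).2 (mem_cl.2 ⟨p, h2, hr⟩)
    have c3 : (cl r K1 \ cl r (S q)) ∪ (cl r K2 ∩ univ.filter fun a => ∃ q ∈ Q, a ∉ cl r (S q)) ⊆
        cl r K ∩ univ.filter fun a => ∃ q' ∈ insert q Q, a ∉ cl r (S q') := by
      intro a ha
      rcases mem_union.1 ha with h1 | h1
      · obtain ⟨h2, h3⟩ := mem_sdiff.1 h1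
        exact mem_inter.2 ⟨cl_mono (filter_subset _ _) h2,
          mem_filter.2 ⟨mem_univ _, q, mem_insert_self _ _, h3⟩⟩
      · obtain ⟨h2, h3⟩ := mem_inter.1 h1
        obtain ⟨_, q', hq', h4⟩ := mem_filter.1 h3
        exact mem_inter.2 ⟨cl_mono (filter_subset _ _) h2,
          mem_filter.2 ⟨mem_univ _, q', mem_insert_of_mem hq', h4⟩⟩
    have c4 := card_le_card c3
    rw [card_union_of_disjoint hd] at c4
    omega

/-- The product inequality (**). -/
theorem star (hrow : ∀ p K, K ⊆ Or' R S p → K.card ≤ (cl r K \ cl r (R p)).card)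
    (hcol : ∀ q K, K ⊆ Oc R S q → K.card ≤ (cl r K \ cl r (S q)).card) :
    ∑ q, ((cl r (Oc R S q) \ cl r (S q)).card : ℤ) + ∑ b, ((Ku r R S b).card : ℤ) ≤
      ∑ q, ((Oc R S q).card : ℤ) + ∑ b, ((cl r (Ku r R S b) ∩ eu r S b).card : ℤ) := by
  have psic : ∀ q K, psi r (cl r (S q))ᶜ K = ((cl r K \ cl r (S q)).card : ℤ) - K.card := by
    intro q K
    have : cl r K ∩ (cl r (S q))ᶜ = cl r K \ cl r (S q) := by
      ext x
      simp
    simp [psi, this]
  have hallc : ∀ q A, A ⊆ Oc R S q → 0 ≤ psi r (cl r (S q))ᶜ A := by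
    intro q A hA
    rw [psic]
    have := hcol q A hA
    have h2 : ((A.card : ℕ) : ℤ) ≤ ((cl r A \ cl r (S q)).card : ℕ) := by exact_mod_cast this
    linarith
  have hallu : ∀ b A, A ⊆ Ku r R S b → 0 ≤ psi r (eu r S b) A := by
    intro b A hA
    have h1 := union_hall hcol b (univ.filter fun q => r q b) (fun q hq => (mem_filter.1 hq).2) A (by
      intro p hp
      obtain ⟨h2, q, h3, h4⟩ := mem_Ku.1 (hA hp)
      exact ⟨h2, q, mem_filter.2 ⟨mem_univ _, h3⟩, h4⟩)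
    have h2 : A.card ≤ (cl r A ∩ eu r S b).card := by
      refine h1.trans (card_le_card ?_)
      intro a ha
      obtain ⟨h3, h4⟩ := mem_inter.1 ha
      obtain ⟨_, q, hq, h5⟩ := mem_filter.1 h4
      exact mem_inter.2 ⟨h3, mem_eu.2 ⟨q, (mem_filter.1 hq).2, h5⟩⟩
    unfold psi
    have h3 : ((A.card : ℕ) : ℤ) ≤ ((cl r A ∩ eu r S b).card : ℕ) := by exact_mod_cast h2
    linarith
  have hle : ∀ p q b, q ∈ Or' R S p → b ∉ cl r (R p) → r q b →
      ell r (ord V) (Oc R S q) (cl r (S q))ᶜ (ord V p) ≤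
        ell r (ord V) (Ku r R S b) (eu r S b) (ord V p) := by
    intro p q b hq hb hr
    have hp : p ∈ Kq r R S b q := mem_Kq.2 ⟨hb, (mem_Or'.1 hq).2⟩
    refine (ell_anti ord_inj (Kq_sub_Oc hr) hp).trans (ell_mono ?_ ?_ ?_ _)
    · intro x hx
      obtain ⟨h1, h2⟩ := mem_Kq.1 hx
      exact mem_Ku.2 ⟨h1, q, hr, h2⟩
    · intro a ha
      exact mem_eu.2 ⟨q, hr, mem_compl.1 ha⟩
    · intro a ha x hx hxa
      refine mem_Kq.2 ⟨(mem_Ku.1 hx).1, fun h3 => ?_⟩
      exact (mem_compl.1 ha) (mem_cl.2 ⟨x, h3, hxa⟩)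
  have hrow' : ∀ p, ∑ q, ell r (ord V) (Oc R S q) (cl r (S q))ᶜ (ord V p) ≤
      ∑ b, ell r (ord V) (Ku r R S b) (eu r S b) (ord V p) := by
    intro p
    have h1 : ∑ q, ell r (ord V) (Oc R S q) (cl r (S q))ᶜ (ord V p) =
        ∑ q ∈ Or' R S p, ell r (ord V) (Oc R S q) (cl r (S q))ᶜ (ord V p) := by
      symm
      refine Finset.sum_subset (subset_univ _) (fun q _ hq => ?_)
      refine ell_eq_zero ord_inj (fun h => hq ?_)
      exact mem_Or'.2 (mem_Oc.1 h)
    rw [h1]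
    refine (hall_sum (r := r) (F := (cl r (R p))ᶜ) _
      (fun b => ell r (ord V) (Ku r R S b) (eu r S b) (ord V p))
      (fun b => ell_nonneg _ _ _ _ _) ?_ ?_).trans
      (Finset.sum_le_sum_of_subset_of_nonneg (subset_univ _) (fun b _ _ => ell_nonneg _ _ _ _ _))
    · intro K hK
      have := hrow p K hK
      have e : cl r K ∩ (cl r (R p))ᶜ = cl r K \ cl r (R p) := by
        ext x
        simp
      rw [e]
      exact this
    · intro q hq b hb hr
      exact hle p q b hq (mem_compl.1 hb) hr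
  have e1 : ∑ q, (((cl r (Oc R S q) \ cl r (S q)).card : ℤ) - ((Oc R S q).card : ℤ)) =
      ∑ q, ∑ p, ell r (ord V) (Oc R S q) (cl r (S q))ᶜ (ord V p) := by
    refine Finset.sum_congr rfl (fun q _ => ?_)
    rw [sum_ell (hallc q), psic]
  have e2 : ∑ b, (((cl r (Ku r R S b) ∩ eu r S b).card : ℤ) - ((Ku r R S b).card : ℤ)) =
      ∑ b, ∑ p, ell r (ord V) (Ku r R S b) (eu r S b) (ord V p) := by
    refine Finset.sum_congr rfl (fun b _ => ?_)
    rw [sum_ell (hallu b)]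
    rfl
  have h3 : ∑ q, ∑ p, ell r (ord V) (Oc R S q) (cl r (S q))ᶜ (ord V p) ≤
      ∑ b, ∑ p, ell r (ord V) (Ku r R S b) (eu r S b) (ord V p) := by
    rw [Finset.sum_comm]
    rw [Finset.sum_comm (f := fun b p => ell r (ord V) (Ku r R S b) (eu r S b) (ord V p))]
    exact Finset.sum_le_sum (fun p _ => hrow' p)
  rw [← e1, ← e2, Finset.sum_sub_distrib, Finset.sum_sub_distrib] at h3
  linarith

end Star

end Vale.Agent.P038.H379
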